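import Vale.Agent.P153.F.Gh.Master

/-!
# P153, block F: exploration on a finite graph

Comparison of a decreasing function of the modulus which confines the clusters of `O` with a
function which depends on the modulus near `O`.
-/

namespace Vale.Agent.P153.F.Gh

open Finset Relation Vale.Agent.P153
open scoped Classical

namespace Gph

variable {W : Type*} (N : Gph W) {M : ℤ}

/-- Open step. -/
def op (a : W → ℤ) (u v : W) : Prop := N.R u v ∧ ¬ (a u ≤ 1 ∧ a v ≤ 1)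

/-- The union of the clusters which meet `O`. -/
def cl (O : Set W) (a : W → ℤ) : Set W := {v | ∃ u ∈ O, ReflTransGen (N.op a) u v}

/-- Sites off `κ` which are not neighbours of `κ`. -/
def inn (κ : Set W) : Set W := {v | v ∉ κ ∧ ∀ u, N.R v u → u ∉ κ}

theorem subset_cl (O : Set W) (a : W → ℤ) : O ⊆ N.cl O a := fun u hu => ⟨u, hu, ReflTransGen.refl⟩

theorem inn_anti {κ κ' : Set W} (h : κ ⊆ κ') : N.inn κ' ⊆ N.inn κ :=
  fun _ hv => ⟨fun h' => hv.1 (h h'), fun u hu h' => hv.2 u hu (h h')⟩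

theorem cross {O : Set W} {a : W → ℤ} {u v : W} (hu : u ∈ N.cl O a) (hv : v ∉ N.cl O a)
    (h : N.R u v) : a u ≤ 1 ∧ a v ≤ 1 := by
  by_contra hc
  obtain ⟨x, hx, hxu⟩ := hu
  exact hv ⟨x, hx, hxu.tail ⟨h, hc⟩⟩

theorem cl_congr {O : Set W} {a a' : W → ℤ} (h : ∀ v, v ∉ N.inn (N.cl O a) → a v = a' v) :
    N.cl O a' = N.cl O a := by
  have hin : ∀ v ∈ N.cl O a, a v = a' v := fun v hv => h v fun h' => h'.1 hv
  ext v
  constructor
  · rintro ⟨x, hx, hxv⟩
    induction hxv with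
    | refl => exact N.subset_cl O a hx
    | @tail p q _ hpq ih =>
      by_contra hq
      have h1 := N.cross ih hq hpq.1
      have h2 : q ∉ N.inn (N.cl O a) := fun h' => h'.2 p (N.symm hpq.1) ih
      refine hpq.2 ?_
      rw [← hin p ih, ← h q h2]
      exact h1
  · rintro ⟨x, hx, hxv⟩
    have key : ∀ v, ReflTransGen (N.op a) x v → ReflTransGen (N.op a') x v ∧ v ∈ N.cl O a := by
      intro v hv
      induction hv with
      | refl => exact ⟨ReflTransGen.refl, N.subset_cl O a hx⟩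
      | @tail p q hxp hpq ih =>
        obtain ⟨i1, i2⟩ := ih
        have hq : q ∈ N.cl O a := ⟨x, hx, hxp.tail hpq⟩
        refine ⟨i1.tail ⟨hpq.1, ?_⟩, hq⟩
        rw [← hin p i2, ← hin q hq]
        exact hpq.2
    exact ⟨x, hx, (key v hxv).1⟩

/-- `H` on `κ`, `z` off `κ`. -/
noncomputable def mix (κ : Set W) (H z : W → ℤ) : W → ℤ := fun v => if v ∈ κ then H v else z v

theorem mix_in {κ : Set W} {H z : W → ℤ} {v : W} (h : v ∈ κ) : mix κ H z v = H v := if_pos h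

theorem mix_out {κ : Set W} {H z : W → ℤ} {v : W} (h : v ∉ κ) : mix κ H z v = z v := if_neg h

theorem mix_mix (κ : Set W) (H z : W → ℤ) : mix κ (mix κ H z) (mix κ z H) = H := by
  funext v
  by_cases h : v ∈ κ
  · rw [mix_in h, mix_in h]
  · rw [mix_out h, mix_out h]

/-- A class of moduli. -/
noncomputable def cI (D : Set W) (η : W → ℤ) (a : W → ℤ) : ℝ :=
  if ∀ v, v ∉ D → a v = η v then 1 else 0

theorem cI_nonneg (D : Set W) (η a : W → ℤ) : 0 ≤ cI D η a := by
  unfold cI; split_ifs <;> norm_num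

section fin

variable [Fintype W]

theorem mix_mem {κ D D₁ D₂ : Set W} {H z : W → ℤ} (hH : H ∈ N.Om M D₁) (hz : z ∈ N.Om M D₂)
    (hD : ∀ v, v ∉ D → |mix κ H z v| = N.b v)
    (hc : ∀ u v, N.R u v → u ∈ κ → v ∉ κ → |H u| ≤ 1 ∧ |z v| ≤ 1) :
    mix κ H z ∈ N.Om M D := by
  rw [mem_Om] at hH hz ⊢
  have key : ∀ u v, N.R u v → u ∈ κ → v ∉ κ → |H u - z v| ≤ 2 := by
    intro u v huv hu hv
    obtain ⟨h1, h2⟩ := hc u v huv hu hv
    rw [abs_le] at *
    omega
  refine ⟨fun u => ?_, ⟨fun u => ?_, fun u v huv => ?_⟩, hD⟩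
  · by_cases hu : u ∈ κ
    · rw [mix_in hu]; exact hH.1 u
    · rw [mix_out hu]; exact hz.1 u
  · by_cases hu : u ∈ κ
    · rw [mix_in hu]; exact hH.2.1.1 u
    · rw [mix_out hu]; exact hz.2.1.1 u
  · by_cases hu : u ∈ κ <;> by_cases hv : v ∈ κ
    · rw [mix_in hu, mix_in hv]; exact hH.2.1.2 u v huv
    · rw [mix_in hu, mix_out hv]; exact key u v huv hu hv
    · rw [mix_out hu, mix_in hv, abs_sub_comm]; exact key v u (N.symm huv) hv hu
    · rw [mix_out hu, mix_out hv]; exact hz.2.1.2 u v huv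

/-- Markov property. -/
theorem markov {κ : Set W} {η : W → ℤ} (hη : ∀ u v, N.R u v → u ∈ κ → v ∉ κ → η u ≤ 1 ∧ η v ≤ 1)
    {A : (W → ℤ) → ℝ} (hA : ∀ H H' : W → ℤ, (∀ v, v ∉ κ → H v = H' v) → A H = A H') :
    (∑ H ∈ N.Om M Set.univ, cI (N.inn κ) η (ab H) * A H) * (#(N.Om M (N.inn κ)) : ℝ) =
      (∑ H ∈ N.Om M Set.univ, cI (N.inn κ) η (ab H)) * ∑ z ∈ N.Om M (N.inn κ), A z := by
  set C : Finset (W → ℤ) := (N.Om M Set.univ).filter fun H => ∀ v, v ∉ N.inn κ → |H v| = η v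
    with hC
  have e1 : ∀ G : (W → ℤ) → ℝ, ∑ H ∈ N.Om M Set.univ, cI (N.inn κ) η (ab H) * G H =
      ∑ H ∈ C, G H := by
    intro G
    rw [hC, Finset.sum_filter]
    refine Finset.sum_congr rfl fun H _ => ?_
    unfold cI ab
    split_ifs <;> ring
  have e2 : ∑ H ∈ N.Om M Set.univ, cI (N.inn κ) η (ab H) = ∑ H ∈ C, (1 : ℝ) := by
    rw [← e1 fun _ => 1]
    simp only [mul_one]
  rw [e1, e2, Finset.card_eq_sum_ones, Nat.cast_sum]
  simp only [Nat.cast_one]
  rw [Finset.sum_mul_sum, Finset.sum_mul_sum, ← Finset.sum_product', ← Finset.sum_product']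
  have hmem : ∀ p ∈ C ×ˢ N.Om M (N.inn κ), mix κ p.1 p.2 ∈ C ∧ mix κ p.2 p.1 ∈ N.Om M (N.inn κ) := by
    rintro ⟨H, z⟩ hp
    obtain ⟨hH, hz⟩ := Finset.mem_product.1 hp
    simp only at hH hz
    rw [hC, Finset.mem_filter] at hH
    obtain ⟨hH, hHη⟩ := hH
    have hH' := N.mem_Om.1 hH
    have hz' := N.mem_Om.1 hz
    have hκ : ∀ v ∈ κ, v ∉ N.inn κ := fun v hv h => h.1 hv
    have hbd : ∀ u v, N.R u v → u ∈ κ → v ∉ κ → v ∉ N.inn κ := fun u v huv hu _ h =>
      h.2 u (N.symm huv) hu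
    have hbdv : ∀ v, v ∉ κ → v ∉ N.inn κ → |H v| = N.b v := by
      intro v hv hv'
      have : ∃ u, N.R v u ∧ u ∈ κ := by
        by_contra hcon
        push Not at hcon
        exact hv' ⟨hv, hcon⟩
      obtain ⟨u, hu, huκ⟩ := this
      have h1 := (hη u v (N.symm hu) huκ hv).2
      rw [← hHη v hv'] at h1
      exact N.eq_b_of (N.even_abs (hH'.2.1.1 v)) (abs_nonneg _) h1
    constructor
    · rw [hC, Finset.mem_filter]
      refine ⟨N.mix_mem hH hz (fun v hv => absurd (Set.mem_univ v) hv) ?_, ?_⟩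
      · intro u v huv hu hv
        refine ⟨?_, ?_⟩
        · show |H u| ≤ 1
          rw [hHη u (hκ u hu)]
          exact (hη u v huv hu hv).1
        · show |z v| ≤ 1
          rw [hz'.2.2 v (hbd u v huv hu hv)]
          exact N.b_le v
      · intro v hv
        show |mix κ H z v| = η v
        by_cases hvκ : v ∈ κ
        · rw [mix_in hvκ]; exact hHη v hv
        · rw [mix_out hvκ, hz'.2.2 v hv, ← hbdv v hvκ hv]
          exact hHη v hv
    · refine N.mix_mem hz hH ?_ ?_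
      · intro v hv
        show |mix κ z H v| = N.b v
        by_cases hvκ : v ∈ κ
        · rw [mix_in hvκ]; exact hz'.2.2 v hv
        · rw [mix_out hvκ]; exact hbdv v hvκ hv
      · intro u v huv hu hv
        refine ⟨?_, ?_⟩
        · show |z u| ≤ 1
          rw [hz'.2.2 u (hκ u hu)]
          exact N.b_le u
        · show |H v| ≤ 1
          rw [hHη v (hbd u v huv hu hv)]
          exact (hη u v huv hu hv).2
  refine Finset.sum_nbij' (i := fun p : (W → ℤ) × (W → ℤ) => (mix κ p.1 p.2, mix κ p.2 p.1))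
    (j := fun p => (mix κ p.1 p.2, mix κ p.2 p.1)) ?_ ?_ ?_ ?_ ?_
  · intro p hp
    exact Finset.mem_product.2 (hmem p hp)
  · intro p hp
    exact Finset.mem_product.2 (hmem p hp)
  · intro p _
    exact Prod.ext (mix_mix κ p.1 p.2) (mix_mix κ p.2 p.1)
  · intro p _
    exact Prod.ext (mix_mix κ p.1 p.2) (mix_mix κ p.2 p.1)
  · intro p _
    simp only [mul_one, one_mul]
    exact hA _ _ fun v hv => (mix_out hv).symm

theorem base_mem (hM : 1 ≤ M) (D : Set W) : N.b ∈ N.Om M D := by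
  refine N.mem_Om.2 ⟨fun u => ?_, ⟨fun u => by simp, fun u v _ => ?_⟩, fun u _ => ?_⟩
  · rw [abs_of_nonneg (N.b_nonneg u)]; exact (N.b_le u).trans hM
  · have h1 := N.b_nonneg u
    have h2 := N.b_le u
    have h3 := N.b_nonneg v
    have h4 := N.b_le v
    rw [abs_le]; omega
  · exact abs_of_nonneg (N.b_nonneg u)

theorem card_pos (hM : 1 ≤ M) (D : Set W) : (0 : ℝ) < #(N.Om M D) := by
  exact_mod_cast Finset.card_pos.2 ⟨_, N.base_mem hM D⟩

/-- Conditioning on the explored part. -/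
theorem class_le (hM : 1 ≤ M) {O : Set W} {η : W → ℤ} {X : (W → ℤ) → ℝ} (hX : ∀ a, 0 ≤ X a)
    (hXa : Antitone X) {B : (W → ℤ) → ℝ} (hB0 : ∀ a, 0 ≤ B a) (hB : Monotone B) (l : List W)
    (hA : ∀ H H' : W → ℤ, (∀ v, v ∉ N.cl O η → H v = H' v) →
      B (ab H) * mon l H = B (ab H') * mon l H') :
    (∑ H ∈ N.Om M Set.univ, (X (ab H) * cI (N.inn (N.cl O η)) η (ab H)) * (B (ab H) * mon l H)) *
        (#(N.Om M (N.inn O)) : ℝ) ≤
      (∑ H ∈ N.Om M Set.univ, X (ab H) * cI (N.inn (N.cl O η)) η (ab H)) *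
        ∑ H ∈ N.Om M (N.inn O), B (ab H) * mon l H := by
  set D := N.inn (N.cl O η) with hD
  set I : (W → ℤ) → ℝ := cI D η with hI
  have hI0 : ∀ a, 0 ≤ I a := cI_nonneg D η
  -- step 1
  have s1 := N.master (M := M) (D := Set.univ) (D' := Set.univ) (X₁ := fun a => X a * I a)
    (X₂ := I) subset_rfl (fun a => mul_nonneg (hX a) (hI0 a)) hI0
    (by
      intro a _ a' _
      by_cases h1 : ∀ v, v ∉ D → a v = η v
      · by_cases h2 : ∀ v, v ∉ D → a' v = η v
        · have h3 : ∀ v, v ∉ D → (a ⊓ a') v = η v := fun v hv => by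
            simp only [Pi.inf_apply]; rw [h1 v hv, h2 v hv, inf_idem]
          have h4 : ∀ v, v ∉ D → (a ⊔ a') v = η v := fun v hv => by
            simp only [Pi.sup_apply]; rw [h1 v hv, h2 v hv, sup_idem]
          have i1 : I a = 1 := if_pos h1
          have i2 : I a' = 1 := if_pos h2
          have i3 : I (a ⊓ a') = 1 := if_pos h3
          have i4 : I (a ⊔ a') = 1 := if_pos h4
          simp only [i1, i2, i3, i4, mul_one]
          exact hXa inf_le_left
        · have i2 : I a' = 0 := if_neg h2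
          rw [i2, mul_zero]
          exact mul_nonneg (mul_nonneg (hX _) (hI0 _)) (hI0 _)
      · have i1 : I a = 0 := if_neg h1
        simp only [i1, mul_zero, zero_mul]
        exact mul_nonneg (mul_nonneg (hX _) (hI0 _)) (hI0 _)) hB0 hB l
  -- step 2
  have s2 := N.markov (M := M) (κ := N.cl O η) (η := η)
    (fun u v huv hu hv => N.cross hu hv huv) (A := fun H => B (ab H) * mon l H) hA
  -- step 3
  have s3 := N.master (M := M) (D := N.inn O) (D' := D) (X₁ := fun _ => 1) (X₂ := fun _ => 1)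
    (N.inn_anti (N.subset_cl O η)) (fun _ => zero_le_one) (fun _ => zero_le_one)
    (fun _ _ _ _ => le_rfl) hB0 hB l
  simp only [one_mul, Finset.sum_const, nsmul_eq_mul, mul_one] at s3
  have c0 := N.card_pos hM D
  have c1 := N.card_pos hM (N.inn O)
  have d1 : 0 ≤ ∑ H ∈ N.Om M (N.inn O), B (ab H) * mon l H := by
    have e : ∀ a ∈ N.Ab M (N.inn O), 0 ≤ cz a * (N.nSG a : ℝ) * B a * N.Fk l a := fun a _ =>
      mul_nonneg (mul_nonneg (mul_nonneg (cz_pos a).le (Nat.cast_nonneg _)) (hB0 a))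
        (N.Fk_nonneg l a)
    rw [N.sum_Om_mon (M := M) (N.inn O) B l]
    exact Finset.sum_nonneg e
  have a0 : 0 ≤ ∑ H ∈ N.Om M Set.univ, X (ab H) * I (ab H) :=
    Finset.sum_nonneg fun H _ => mul_nonneg (hX _) (hI0 _)
  have b0 : 0 ≤ ∑ H ∈ N.Om M Set.univ, I (ab H) := Finset.sum_nonneg fun H _ => hI0 _
  rcases b0.eq_or_lt with hb | hb
  · have hz := (Finset.sum_eq_zero_iff_of_nonneg (fun H _ => hI0 (ab H))).1 hb.symm
    have ha1 : ∑ H ∈ N.Om M Set.univ, (X (ab H) * I (ab H)) * (B (ab H) * mon l H) = 0 := by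
      refine Finset.sum_eq_zero fun H hH => ?_
      rw [hz H hH, mul_zero, zero_mul]
    rw [ha1, zero_mul]
    exact mul_nonneg a0 d1
  · set a1 := ∑ H ∈ N.Om M Set.univ, (X (ab H) * I (ab H)) * (B (ab H) * mon l H)
    set a0' := ∑ H ∈ N.Om M Set.univ, X (ab H) * I (ab H)
    set b1 := ∑ H ∈ N.Om M Set.univ, I (ab H) * (B (ab H) * mon l H)
    set b0' := ∑ H ∈ N.Om M Set.univ, I (ab H)
    set c1' := ∑ z ∈ N.Om M D, (B (ab z) * mon l z)
    set c0' : ℝ := ((#(N.Om M D) : ℕ) : ℝ)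
    set d1' := ∑ H ∈ N.Om M (N.inn O), B (ab H) * mon l H
    set d0' : ℝ := ((#(N.Om M (N.inn O)) : ℕ) : ℝ)
    have s2' : b1 * c0' = b0' * c1' := s2
    have h1 : a1 * b0' * c0' ≤ a0' * b0' * c1' := by
      calc a1 * b0' * c0' ≤ a0' * b1 * c0' := mul_le_mul_of_nonneg_right s1 c0.le
        _ = a0' * (b1 * c0') := by ring
        _ = a0' * b0' * c1' := by rw [s2']; ring
    have h2 : a1 * c0' ≤ a0' * c1' := by
      have : (a1 * c0') * b0' ≤ (a0' * c1') * b0' := by nlinarith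
      exact le_of_mul_le_mul_right this hb
    have h3 : (a1 * d0') * c0' ≤ (a0' * d1') * c0' := by
      calc (a1 * d0') * c0' = (a1 * c0') * d0' := by ring
        _ ≤ (a0' * c1') * d0' := mul_le_mul_of_nonneg_right h2 c1.le
        _ = a0' * (c1' * d0') := by ring
        _ ≤ a0' * (c0' * d1') := mul_le_mul_of_nonneg_left s3 a0
        _ = _ := by ring
    exact le_of_mul_le_mul_right h3 c0

/-- The explored part of the modulus. -/
noncomputable def rep (O : Set W) (a : W → ℤ) : W → ℤ :=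
  fun v => if v ∈ N.inn (N.cl O a) then 0 else a v

omit [Fintype W] in
theorem rep_iff (O : Set W) (η a : W → ℤ) :
    N.rep O a = N.rep O η ↔ ∀ v, v ∉ N.inn (N.cl O η) → a v = η v := by
  have hr : ∀ a : W → ℤ, ∀ v, v ∉ N.inn (N.cl O a) → a v = N.rep O a v := by
    intro a v hv
    unfold rep
    rw [if_neg hv]
  constructor
  · intro h
    have e1 := N.cl_congr (hr a)
    have e2 := N.cl_congr (hr η)
    have e3 : N.cl O a = N.cl O η := by rw [← e1, ← e2, h]
    intro v hv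
    rw [hr η v hv, ← h]
    exact hr a v (by rw [e3]; exact hv)
  · intro h
    have e := N.cl_congr (O := O) (a := η) (a' := a) fun v hv => (h v hv).symm
    funext v
    unfold rep
    rw [e]
    by_cases hv : v ∈ N.inn (N.cl O η)
    · rw [if_pos hv, if_pos hv]
    · rw [if_neg hv, if_neg hv]
      exact h v hv

/-- Exploration from `O`. -/
theorem expl_le (hM : 1 ≤ M) {O I : Set W} {X : (W → ℤ) → ℝ} (hX : ∀ a, 0 ≤ X a)
    (hXa : Antitone X) (hXd : ∀ a, X a ≠ 0 → Disjoint (N.cl O a) I)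
    {B : (W → ℤ) → ℝ} (hB0 : ∀ a, 0 ≤ B a) (hB : Monotone B) (l : List W)
    (hA : ∀ H H' : W → ℤ, (∀ v ∈ I, H v = H' v) → B (ab H) * mon l H = B (ab H') * mon l H') :
    (∑ H ∈ N.Om M Set.univ, X (ab H) * (B (ab H) * mon l H)) * (#(N.Om M (N.inn O)) : ℝ) ≤
      (∑ H ∈ N.Om M Set.univ, X (ab H)) * ∑ H ∈ N.Om M (N.inn O), B (ab H) * mon l H := by
  set E : Finset (W → ℤ) := (N.Om M Set.univ).image fun H => N.rep O (ab H) with hE
  have dec : ∀ G : (W → ℤ) → ℝ, ∑ H ∈ N.Om M Set.univ, G H =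
      ∑ η ∈ E, ∑ H ∈ N.Om M Set.univ with N.rep O (ab H) = η, G H := by
    intro G
    exact (Finset.sum_fiberwise_of_maps_to (fun H hH => Finset.mem_image_of_mem _ hH) G).symm
  rw [dec fun H => X (ab H) * (B (ab H) * mon l H), dec fun H => X (ab H), Finset.sum_mul,
    Finset.sum_mul]
  refine Finset.sum_le_sum fun η hη => ?_
  obtain ⟨H₀, hH₀, rfl⟩ := Finset.mem_image.1 hη
  have hfilt : ∀ G : (W → ℤ) → ℝ,
      ∑ H ∈ N.Om M Set.univ with N.rep O (ab H) = N.rep O (ab H₀), G H =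
        ∑ H ∈ N.Om M Set.univ, cI (N.inn (N.cl O (ab H₀))) (ab H₀) (ab H) * G H := by
    intro G
    rw [Finset.sum_filter]
    refine Finset.sum_congr rfl fun H _ => ?_
    unfold cI
    by_cases h : N.rep O (ab H) = N.rep O (ab H₀)
    · rw [if_pos h, if_pos ((N.rep_iff O _ _).1 h), one_mul]
    · rw [if_neg h, if_neg fun h' => h ((N.rep_iff O _ _).2 h'), zero_mul]
  rw [hfilt, hfilt]
  by_cases hd : Disjoint (N.cl O (ab H₀)) I
  · have h := N.class_le hM (O := O) (η := ab H₀) hX hXa hB0 hB l (fun H H' hHH => hA H H'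
      fun v hv => hHH v fun hv' => (Set.disjoint_left.1 hd) hv' hv)
    calc (∑ H ∈ N.Om M Set.univ, cI (N.inn (N.cl O (ab H₀))) (ab H₀) (ab H) *
            (X (ab H) * (B (ab H) * mon l H))) * (#(N.Om M (N.inn O)) : ℝ)
        = (∑ H ∈ N.Om M Set.univ, (X (ab H) * cI (N.inn (N.cl O (ab H₀))) (ab H₀) (ab H)) *
            (B (ab H) * mon l H)) * (#(N.Om M (N.inn O)) : ℝ) := by
          congr 1
          exact Finset.sum_congr rfl fun H _ => by ring
      _ ≤ _ := h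
      _ = _ := by
          congr 1
          exact Finset.sum_congr rfl fun H _ => by ring
  · have hz : ∀ H ∈ N.Om M Set.univ, cI (N.inn (N.cl O (ab H₀))) (ab H₀) (ab H) * X (ab H) = 0 := by
      intro H _
      by_cases h : ∀ v, v ∉ N.inn (N.cl O (ab H₀)) → (ab H) v = (ab H₀) v
      · have e := N.cl_congr (O := O) (a := ab H₀) (a' := ab H) fun v hv => (h v hv).symm
        have : X (ab H) = 0 := by
          by_contra hne
          have := hXd (ab H) hne
          rw [e] at this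
          exact hd this
        rw [this, mul_zero]
      · have : cI (N.inn (N.cl O (ab H₀))) (ab H₀) (ab H) = 0 := if_neg h
        rw [this, zero_mul]
    have h1 : ∑ H ∈ N.Om M Set.univ, cI (N.inn (N.cl O (ab H₀))) (ab H₀) (ab H) *
        (X (ab H) * (B (ab H) * mon l H)) = 0 :=
      Finset.sum_eq_zero fun H hH => by rw [← mul_assoc, hz H hH, zero_mul]
    have h2 : ∑ H ∈ N.Om M Set.univ, cI (N.inn (N.cl O (ab H₀))) (ab H₀) (ab H) * X (ab H) = 0 :=
      Finset.sum_eq_zero hz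
    rw [h1, h2, zero_mul, zero_mul]

/-- Zero boundary condition on `D`, against a function of the modulus off `D`. -/
theorem low_le {D : Set W} {Θ : (W → ℤ) → ℝ} (hΘ0 : ∀ a, 0 ≤ Θ a)
    (hΘ : ∀ a a' : W → ℤ, (∀ v, v ∉ D → a v = a' v) → Θ a = Θ a') {B : (W → ℤ) → ℝ}
    (hB0 : ∀ a, 0 ≤ B a) (hB : Monotone B) (l : List W) :
    (∑ H ∈ N.Om M D, B (ab H) * mon l H) * (∑ H ∈ N.Om M Set.univ, Θ (ab H)) ≤
      (#(N.Om M D) : ℝ) * ∑ H ∈ N.Om M Set.univ, Θ (ab H) * (B (ab H) * mon l H) := by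
  have h := N.master (M := M) (D := Set.univ) (D' := D) (X₁ := fun _ => 1) (X₂ := Θ)
    (Set.subset_univ D) (fun _ => zero_le_one) hΘ0
    (by
      intro a ha a' ha'
      rw [one_mul, one_mul]
      refine (hΘ a' (a ⊔ a') fun v hv => ?_).le
      have h1 := (N.mem_Ab.1 ha).2.2 v hv
      have h2 := N.b_le_of ((N.mem_Ab.1 ha').2.1.1 v) ((N.mem_Ab.1 ha').1 v).1
      simp only [Pi.sup_apply]
      rw [h1]
      exact (sup_eq_right.2 h2).symm) hB0 hB l
  simpa only [one_mul, Finset.sum_const, nsmul_eq_mul, mul_one] using h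

/-- **Exploration from `O` against a function of the modulus near `O`.** -/
theorem ext_le (hM : 1 ≤ M) {O I : Set W} {X Θ : (W → ℤ) → ℝ} (hX : ∀ a, 0 ≤ X a)
    (hXa : Antitone X) (hXd : ∀ a, X a ≠ 0 → Disjoint (N.cl O a) I) (hΘ0 : ∀ a, 0 ≤ Θ a)
    (hΘ : ∀ a a' : W → ℤ, (∀ v, v ∉ N.inn O → a v = a' v) → Θ a = Θ a')
    {B : (W → ℤ) → ℝ} (hB0 : ∀ a, 0 ≤ B a) (hB : Monotone B) (l : List W)
    (hA : ∀ H H' : W → ℤ, (∀ v ∈ I, H v = H' v) → B (ab H) * mon l H = B (ab H') * mon l H') :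
    (∑ H ∈ N.Om M Set.univ, X (ab H) * (B (ab H) * mon l H)) *
        (∑ H ∈ N.Om M Set.univ, Θ (ab H)) ≤
      (∑ H ∈ N.Om M Set.univ, X (ab H)) *
        ∑ H ∈ N.Om M Set.univ, Θ (ab H) * (B (ab H) * mon l H) := by
  have h1 := N.expl_le hM hX hXa hXd hB0 hB l hA
  have h2 := N.low_le (M := M) (D := N.inn O) hΘ0 hΘ hB0 hB l
  have p := N.card_pos hM (N.inn O)
  have n1 : 0 ≤ ∑ H ∈ N.Om M Set.univ, Θ (ab H) := Finset.sum_nonneg fun H _ => hΘ0 _
  have n2 : 0 ≤ ∑ H ∈ N.Om M Set.univ, X (ab H) := Finset.sum_nonneg fun H _ => hX _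
  set z : ℝ := ((#(N.Om M (N.inn O)) : ℕ) : ℝ)
  set a := ∑ H ∈ N.Om M Set.univ, X (ab H) * (B (ab H) * mon l H)
  set b := ∑ H ∈ N.Om M Set.univ, X (ab H)
  set u := ∑ H ∈ N.Om M (N.inn O), B (ab H) * mon l H
  set v := ∑ H ∈ N.Om M Set.univ, Θ (ab H)
  set w := ∑ H ∈ N.Om M Set.univ, Θ (ab H) * (B (ab H) * mon l H)
  have h3 : z * (a * v) ≤ z * (b * w) := by
    calc z * (a * v) = (a * z) * v := by ring
      _ ≤ (b * u) * v := mul_le_mul_of_nonneg_right h1 n1
      _ = b * (u * v) := by ring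
      _ ≤ b * (z * w) := mul_le_mul_of_nonneg_left h2 n2
      _ = z * (b * w) := by ring
  exact le_of_mul_le_mul_left h3 p

end fin

end Gph

end Vale.Agent.P153.F.Gh
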