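import Vale.Agent.P153.F.Gh.Ext
import Vale.Agent.P153.F.Mu
import Vale.Agent.P153.GFF.Interface
import Vale.Agent.P153.A.Gibbs

/-!
# P153, block F: the plane measure as a limit of ensembles with a ghost site

The heights of the finite domain `D` (with values `2 k ± 1` at the boundary, sum over `k`) are the
heights of the graph `D` with an even ghost site of height `2 k`.
-/

namespace Vale.Agent.P153.F.Gh

open Finset Filter Topology MeasureTheory Vale.Agent.P153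
open Vale.Agent.P153.GFF (Ht Pat hexa LocLim)
open scoped Classical

/-- The neighbour relation of `D` with a ghost site next to the boundary. -/
def gR (D : Finset Pt) : Option {x // x ∈ D} → Option {x // x ∈ D} → Prop
  | none, none => False
  | none, some x => ∃ w, Adj x.1 w ∧ w ∉ D
  | some x, none => ∃ w, Adj x.1 w ∧ w ∉ D
  | some x, some y => Adj x.1 y.1

/-- The graph `D` with a ghost site. -/
def gD (D : Finset Pt) : Gph (Option {x // x ∈ D}) where
  R := gR D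
  b u := match u with
    | none => 0
    | some _ => 1
  symm {u v} h := by
    rcases u with _ | x <;> rcases v with _ | y
    · exact h
    · exact h
    · exact h
    · exact Adj.symm h
  b01 u := by
    rcases u with _ | x
    · exact Or.inl rfl
    · exact Or.inr rfl
  odd {u v} h := by
    rcases u with _ | x <;> rcases v with _ | y
    · exact h.elim
    · exact Or.inr rfl
    · exact Or.inl rfl
    · exact Or.inl rfl

variable {D : Finset Pt}

theorem gD_R_some {x y : {x // x ∈ D}} : (gD D).R (some x) (some y) ↔ Adj x.1 y.1 := Iff.rfl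

theorem gD_R_none {x : {x // x ∈ D}} : (gD D).R none (some x) ↔ ∃ w, Adj x.1 w ∧ w ∉ D := Iff.rfl

theorem gD_b_none : (gD D).b none = 0 := rfl

theorem gD_b_some (x : {x // x ∈ D}) : (gD D).b (some x) = 1 := rfl

/-- Extension by one. -/
noncomputable def ex1 (H : Option {x // x ∈ D} → ℤ) : Hg :=
  fun x => if h : x ∈ D then H (some ⟨x, h⟩) else 1

theorem ex1_in {H : Option {x // x ∈ D} → ℤ} {x : Pt} (h : x ∈ D) : ex1 H x = H (some ⟨x, h⟩) :=
  dif_pos h

theorem ex1_out {H : Option {x // x ∈ D} → ℤ} {x : Pt} (h : x ∉ D) : ex1 H x = 1 := dif_neg h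

theorem finite_Ht (D : Finset Pt) : (Ht D).Finite := by
  have h1 : ∀ φ ∈ Ht D, (∀ x, x ∉ D → φ x = 0) ∧ ∀ x, |φ x| ≤ 1 + #D := by
    intro φ hφ
    have hout : ∀ x, x ∉ D → φ x = 0 := fun x hx => (hφ.1 x).1 hx
    refine ⟨hout, fun x => ?_⟩
    have hL : Lip (fun x => 2 * φ x - 1) := by
      refine ⟨fun x => ⟨φ x - 1, by ring⟩, fun x y hxy => ?_⟩
      have := abs_le.1 (hφ.2 x y hxy)
      show |2 * φ x - 1 - (2 * φ y - 1)| ≤ 2
      rw [abs_le]
      omega
    have := hL.bdd (D := D) (fun y hy => by rw [hout y hy]; norm_num) x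
    rw [abs_le] at this ⊢
    omega
  refine (finite_bdd D (fun _ => 0) (1 + #D)).subset fun φ hφ => ?_
  exact ⟨(h1 φ hφ).2, (h1 φ hφ).1⟩

/-- The heights with a ghost, given on `B`. -/
noncomputable def CH (D : Finset Pt) (M : ℤ) (B : Finset Pt) (c : Hg) :
    Finset (Option {x // x ∈ D} → ℤ) :=
  ((gD D).Om M Set.univ).filter fun H => ∀ x ∈ B, ex1 H x = c x

/-- From heights on `D` to heights with a ghost. -/
noncomputable def gh (c : Hg) (x₀ : Pt) (φ : Pt → ℤ) : Option {x // x ∈ D} → ℤ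
  | none => 2 * (half c x₀ - φ x₀)
  | some x => 2 * φ x.1 + 2 * (half c x₀ - φ x₀) - 1

theorem adj_irr {x y : Pt} (h : Adj x y) : x ≠ y := by
  rintro rfl
  unfold Adj at h
  simp at h

theorem card_CH (D B : Finset Pt) (hB : B ⊆ D) {x₀ : Pt} (hx₀ : x₀ ∈ B) {c : Hg}
    (hc : ∀ x, Odd (c x)) :
    ∃ M₀ : ℤ, ∀ M, M₀ ≤ M → #(CH D M B c) = (Ht D ∩ Pat B (half c)).ncard := by
  have hfin : (Ht D ∩ Pat B (half c)).Finite := (finite_Ht D).subset Set.inter_subset_left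
  set f : (Pt → ℤ) → (Option {x // x ∈ D} → ℤ) := gh c x₀ with hf
  set S := hfin.toFinset with hS
  have hSm : ∀ φ, φ ∈ S ↔ φ ∈ Ht D ∩ Pat B (half c) := fun φ => by rw [hS, Set.Finite.mem_toFinset]
  refine ⟨∑ φ ∈ S, ∑ u, |f φ u|, fun M hM => ?_⟩
  have hbd : ∀ φ ∈ S, ∀ u, |f φ u| ≤ M := by
    intro φ hφ u
    refine le_trans ?_ hM
    refine le_trans ?_ (Finset.single_le_sum (f := fun φ => ∑ u, |f φ u|)
      (fun φ _ => Finset.sum_nonneg fun u _ => abs_nonneg _) hφ)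
    exact Finset.single_le_sum (f := fun u => |f φ u|) (fun u _ => abs_nonneg _)
      (Finset.mem_univ u)
  have hcard : (Ht D ∩ Pat B (half c)).ncard = #S := by
    rw [hS, Set.ncard_eq_toFinset_card _ hfin]
  rw [hcard]
  symm
  refine Finset.card_nbij' (i := f) (j := fun H x =>
    if h : x ∈ D then (H (some ⟨x, h⟩) + 1 - H none) / 2 else 0) ?_ ?_ ?_ ?_
  · intro φ hφ
    have hφ' := (hSm φ).1 hφ
    obtain ⟨⟨h1, h2⟩, h3⟩ := hφ'
    have hx₀D := hB hx₀
    have hval : ∀ x ∈ B, ex1 (f φ) x = c x := by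
      intro x hx
      rw [ex1_in (hB hx)]
      show 2 * φ x + 2 * (half c x₀ - φ x₀) - 1 = c x
      have := h3 x hx x₀ hx₀
      have h5 := half_eq hc x
      linarith
    refine Finset.mem_coe.2 (Finset.mem_filter.2 ⟨(gD D).mem_Om.2 ⟨hbd φ hφ, ⟨?_, ?_⟩, ?_⟩, hval⟩)
    · intro u
      rcases u with _ | x
      · rw [gD_b_none]
        exact ⟨half c x₀ - φ x₀, by show 2 * (half c x₀ - φ x₀) - 0 = _; ring⟩
      · rw [gD_b_some]
        exact ⟨φ x.1 + (half c x₀ - φ x₀) - 1, by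
          show 2 * φ x.1 + 2 * (half c x₀ - φ x₀) - 1 - 1 = _; ring⟩
    · have key : ∀ x : {x // x ∈ D}, (∃ w, Adj x.1 w ∧ w ∉ D) →
          |f φ none - f φ (some x)| ≤ 2 := by
        intro x hx
        show |2 * (half c x₀ - φ x₀) - (2 * φ x.1 + 2 * (half c x₀ - φ x₀) - 1)| ≤ 2
        rcases (h1 x.1).2 hx with h | h <;> rw [h, abs_le] <;> constructor <;> linarith
      intro u v huv
      rcases u with _ | x <;> rcases v with _ | y
      · exact huv.elim
      · exact key y huv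
      · rw [abs_sub_comm]; exact key x huv
      · have h4 := abs_le.1 (h2 x.1 y.1 huv)
        show |2 * φ x.1 + 2 * (half c x₀ - φ x₀) - 1 - (2 * φ y.1 + 2 * (half c x₀ - φ x₀) - 1)| ≤ 2
        rw [abs_le]
        constructor <;> linarith [h4.1, h4.2]
    · intro u hu
      exact absurd (Set.mem_univ u) hu
  · intro H hH
    obtain ⟨hH1, hH2⟩ := Finset.mem_filter.1 (Finset.mem_coe.1 hH)
    obtain ⟨-, ⟨hpar, hlip⟩, -⟩ := (gD D).mem_Om.1 hH1
    obtain ⟨k, hk⟩ := hpar none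
    rw [gD_b_none] at hk
    have hk' : H none = 2 * k := by linarith
    have hval : ∀ x (h : x ∈ D), (H (some ⟨x, h⟩) + 1 - H none) / 2 * 2 =
        H (some ⟨x, h⟩) + 1 - H none := by
      intro x h
      obtain ⟨m, hm⟩ := hpar (some ⟨x, h⟩)
      rw [gD_b_some] at hm
      omega
    have hbdv : ∀ x (h : x ∈ D), (∃ w, Adj x w ∧ w ∉ D) →
        (H (some ⟨x, h⟩) + 1 - H none) / 2 = 0 ∨ (H (some ⟨x, h⟩) + 1 - H none) / 2 = 1 := by
      intro x h hx
      obtain ⟨m, hm⟩ := hpar (some ⟨x, h⟩)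
      rw [gD_b_some] at hm
      have h5 := abs_le.1 (hlip none (some ⟨x, h⟩) (gD_R_none.2 hx))
      omega
    have hmem : (fun x => if h : x ∈ D then (H (some ⟨x, h⟩) + 1 - H none) / 2 else 0) ∈ Ht D := by
      refine ⟨fun x => ⟨fun hx => dif_neg hx, fun hx => ?_⟩, fun x y hxy => ?_⟩
      · by_cases h : x ∈ D
        · simp only [dif_pos h]
          exact hbdv x h hx
        · exact Or.inl (dif_neg h)
      · have hxy' : Adj x y := hxy
        by_cases hx : x ∈ D <;> by_cases hy : y ∈ D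
        · simp only [dif_pos hx, dif_pos hy]
          have h5 := abs_le.1 (hlip (some ⟨x, hx⟩) (some ⟨y, hy⟩) (gD_R_some.2 hxy'))
          have h6 := hval x hx
          have h7 := hval y hy
          rw [abs_le]
          omega
        · simp only [dif_pos hx, dif_neg hy]
          rcases hbdv x hx ⟨y, hxy', hy⟩ with h | h <;> rw [h] <;> norm_num
        · simp only [dif_neg hx, dif_pos hy]
          rcases hbdv y hy ⟨x, hxy'.symm, hx⟩ with h | h <;> rw [h] <;> norm_num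
        · simp only [dif_neg hx, dif_neg hy]
          norm_num
    refine Finset.mem_coe.2 ((hSm _).2 ⟨hmem, fun x hx y hy => ?_⟩)
    have h5 := hH2 x hx
    have h6 := hH2 y hy
    rw [ex1_in (hB hx)] at h5
    rw [ex1_in (hB hy)] at h6
    have h7 := hval x (hB hx)
    have h8 := hval y (hB hy)
    have h9 := half_eq hc x
    have h10 := half_eq hc y
    simp only [dif_pos (hB hx), dif_pos (hB hy)]
    omega
  · intro φ hφ
    obtain ⟨⟨h1, h2⟩, h3⟩ := (hSm φ).1 (Finset.mem_coe.1 hφ)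
    funext x
    by_cases hx : x ∈ D
    · simp only [dif_pos hx]
      show (2 * φ x + 2 * (half c x₀ - φ x₀) - 1 + 1 - 2 * (half c x₀ - φ x₀)) / 2 = φ x
      omega
    · simp only [dif_neg hx]
      exact ((h1 x).1 hx).symm
  · intro H hH
    obtain ⟨hH1, hH2⟩ := Finset.mem_filter.1 (Finset.mem_coe.1 hH)
    obtain ⟨-, ⟨hpar, hlip⟩, -⟩ := (gD D).mem_Om.1 hH1
    have hval : ∀ x (h : x ∈ D), (H (some ⟨x, h⟩) + 1 - H none) / 2 * 2 =
        H (some ⟨x, h⟩) + 1 - H none := by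
      intro x h
      obtain ⟨m, hm⟩ := hpar (some ⟨x, h⟩)
      obtain ⟨k, hk⟩ := hpar none
      rw [gD_b_some] at hm
      rw [gD_b_none] at hk
      omega
    have h0 := hH2 x₀ hx₀
    rw [ex1_in (hB hx₀)] at h0
    have h9 := half_eq hc x₀
    have h10 := hval x₀ (hB hx₀)
    have hnone : 2 * (half c x₀ - (H (some ⟨x₀, hB hx₀⟩) + 1 - H none) / 2) = H none := by
      omega
    funext u
    rcases u with _ | x
    · show 2 * (half c x₀ - dite _ _ _) = H none
      rw [dif_pos (hB hx₀)]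
      exact hnone
    · show 2 * dite _ _ _ + 2 * (half c x₀ - dite _ _ _) - 1 = H (some x)
      rw [dif_pos (hB hx₀), dif_pos x.2, hnone]
      have := hval x.1 x.2
      have e : (⟨x.1, x.2⟩ : {x // x ∈ D}) = x := rfl
      rw [e] at this ⊢
      omega

/-- Local functions which are bounded by `R` on `B` where they do not vanish. -/
structure Lcl (B : Finset Pt) (R : ℤ) (F : Hg → ℝ) : Prop where
  dep : ∀ h h' : Hg, (∀ x ∈ B, h x = h' x) → F h = F h'
  bdd : ∀ h : Hg, (∀ x ∈ B, Odd (h x)) → (∀ x ∈ B, ∀ y ∈ B, Adj x y → |h x - h y| ≤ 2) →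
    F h ≠ 0 → ∀ x ∈ B, |h x| ≤ R

theorem finite_pt (B : Finset Pt) (R : ℤ) :
    {c : Hg | (∀ x, Odd (c x)) ∧ (∀ x ∈ B, |c x| ≤ R) ∧ ∀ x, x ∉ B → c x = 1}.Finite := by
  refine (finite_bdd B (fun _ => 1) (max R 1)).subset ?_
  rintro c ⟨-, h2, h3⟩
  refine ⟨fun x => ?_, h3⟩
  by_cases hx : x ∈ B
  · exact (h2 x hx).trans (le_max_left _ _)
  · rw [h3 x hx]
    simp

/-- The patterns. -/
noncomputable def pt (B : Finset Pt) (R : ℤ) : Finset Hg := (finite_pt B R).toFinset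

theorem mem_pt {B : Finset Pt} {R : ℤ} {c : Hg} : c ∈ pt B R ↔
    (∀ x, Odd (c x)) ∧ (∀ x ∈ B, |c x| ≤ R) ∧ ∀ x, x ∉ B → c x = 1 := by
  unfold pt
  rw [Set.Finite.mem_toFinset]
  rfl

/-- A local function is a combination of indicators of patterns. -/
theorem Lcl.eq_sum {B : Finset Pt} {R : ℤ} {F : Hg → ℝ} (hF : Lcl B R F) {h : Hg}
    (h1 : ∀ x ∈ B, Odd (h x)) (h2 : ∀ x ∈ B, ∀ y ∈ B, Adj x y → |h x - h y| ≤ 2) :
    F h = ∑ c ∈ pt B R, if ∀ x ∈ B, h x = c x then F c else 0 := by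
  set c₀ : Hg := fun x => if x ∈ B then h x else 1 with hc₀
  have e0 : ∀ x ∈ B, h x = c₀ x := fun x hx => by rw [hc₀]; simp [hx]
  by_cases hz : F h = 0
  · rw [hz]
    symm
    refine Finset.sum_eq_zero fun c hc => ?_
    split_ifs with h3
    · rw [← hF.dep h c h3]; exact hz
    · rfl
  · have hb := hF.bdd h h1 h2 hz
    have hmem : c₀ ∈ pt B R := by
      refine mem_pt.2 ⟨fun x => ?_, fun x hx => ?_, fun x hx => ?_⟩
      · rw [hc₀]
        by_cases hx : x ∈ B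
        · simp only [hx, if_true]; exact h1 x hx
        · simp only [hx, if_false]; exact odd_one
      · rw [← e0 x hx]; exact hb x hx
      · rw [hc₀]; simp [hx]
    rw [Finset.sum_eq_single c₀]
    · rw [if_pos e0]
      exact hF.dep _ _ e0
    · intro c hc hne
      rw [if_neg]
      intro h3
      apply hne
      funext x
      by_cases hx : x ∈ B
      · rw [← h3 x hx, e0 x hx]
      · rw [(mem_pt.1 hc).2.2 x hx, (mem_pt.1 hmem).2.2 x hx]
    · intro h3
      exact absurd hmem h3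

/-- The integral of a local function. -/
theorem integral_lcl {P : Measure (Pt → ℤ)} [IsProbabilityMeasure P]
    (hlip : ∀ᵐ φ ∂P, ∀ x y, GFF.Adj x y → |φ x - φ y| ≤ 1) {B : Finset Pt} (hB : B.Nonempty)
    {R : ℤ} {F : Hg → ℝ} (hF : Lcl B R F) :
    ∫ h, F h ∂(muT P) = ∑ c ∈ pt B R, F c * P.real (Pat B (half c)) := by
  have hae : ∀ᵐ h ∂(muT P), F h = ∑ c ∈ pt B R, (Cyl B c).indicator (fun _ => F c) h := by
    filter_upwards [muT_lip hlip] with h hh
    rw [hF.eq_sum (fun x _ => hh.1 x) fun x _ y _ hxy => hh.2 x y hxy]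
    refine Finset.sum_congr rfl fun c _ => ?_
    by_cases h3 : ∀ x ∈ B, h x = c x
    · rw [if_pos h3, Set.indicator_of_mem (show h ∈ Cyl B c from h3)]
    · rw [if_neg h3, Set.indicator_of_notMem (show h ∉ Cyl B c from h3)]
  have hcyl : ∀ c ∈ pt B R, muT P (Cyl B c) = P (Pat B (half c)) := fun c hc =>
    muT_cyl P hB (mem_pt.1 hc).1
  rw [integral_congr_ae hae, integral_finsetSum]
  · refine Finset.sum_congr rfl fun c hc => ?_
    rw [integral_indicator (measurable_cyl B c), setIntegral_const, smul_eq_mul, mul_comm,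
      Measure.real, hcyl c hc, Measure.real]
  · intro c hc
    rw [integrable_indicator_iff (measurable_cyl B c)]
    refine integrableOn_const ?_
    rw [hcyl c hc]
    exact measure_ne_top P _

/-- The sum over the heights with a ghost. -/
theorem sum_lcl {B : Finset Pt} (hB : B.Nonempty) (hBD : B ⊆ D) {R : ℤ} :
    ∃ M₀ : ℤ, ∀ M, M₀ ≤ M → ∀ F : Hg → ℝ, Lcl B R F →
      ∑ H ∈ (gD D).Om M Set.univ, F (ex1 H) =
        ∑ c ∈ pt B R, F c * ((Ht D ∩ Pat B (half c)).ncard : ℝ) := by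
  obtain ⟨x₀, hx₀⟩ := hB
  have hM : ∀ c ∈ pt B R, ∃ M₀ : ℤ, ∀ M, M₀ ≤ M →
      #(CH D M B c) = (Ht D ∩ Pat B (half c)).ncard := fun c hc =>
    card_CH D B hBD hx₀ (mem_pt.1 hc).1
  choose! M₀ hM₀ using hM
  refine ⟨∑ c ∈ pt B R, |M₀ c|, fun M hMM F hF => ?_⟩
  have hMc : ∀ c ∈ pt B R, M₀ c ≤ M := fun c hc =>
    (le_abs_self _).trans ((Finset.single_le_sum (f := fun c => |M₀ c|)
      (fun c _ => abs_nonneg _) hc).trans hMM)
  have h1 : ∀ H ∈ (gD D).Om M Set.univ, F (ex1 H) =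
      ∑ c ∈ pt B R, if ∀ x ∈ B, ex1 H x = c x then F c else 0 := by
    intro H hH
    obtain ⟨-, ⟨hpar, hlip⟩, -⟩ := (gD D).mem_Om.1 hH
    refine hF.eq_sum (fun x hx => ?_) fun x hx y hy hxy => ?_
    · rw [ex1_in (hBD hx)]
      obtain ⟨m, hm⟩ := hpar (some ⟨x, hBD hx⟩)
      rw [gD_b_some] at hm
      exact ⟨m, by omega⟩
    · rw [ex1_in (hBD hx), ex1_in (hBD hy)]
      exact hlip _ _ (gD_R_some.2 hxy)
  rw [Finset.sum_congr rfl h1, Finset.sum_comm]
  refine Finset.sum_congr rfl fun c hc => ?_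
  rw [← hM₀ c hc M (hMc c hc), CH, ← Finset.sum_filter, Finset.sum_const, nsmul_eq_mul, mul_comm]

/-- **The limit.** -/
theorem tendsto_lcl {P : Measure (Pt → ℤ)} (hP : GFF.Plane P) {B : Finset Pt}
    (hB : B.Nonempty) {R : ℤ} {F : Hg → ℝ} (hF : Lcl B R F) :
    Tendsto (fun n => (∑ c ∈ pt B R, F c * ((Ht (hexa n) ∩ Pat B (half c)).ncard : ℝ)) /
      (Ht (hexa n)).ncard) atTop (𝓝 (∫ h, F h ∂(muT P))) := by
  have := hP.prob
  rw [integral_lcl hP.lip hB hF]
  have h1 : ∀ n, (∑ c ∈ pt B R, F c * ((Ht (hexa n) ∩ Pat B (half c)).ncard : ℝ)) /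
      (Ht (hexa n)).ncard = ∑ c ∈ pt B R, F c *
        (((Ht (hexa n) ∩ Pat B (half c)).ncard : ℝ) / (Ht (hexa n)).ncard) := by
    intro n
    rw [Finset.sum_div]
    exact Finset.sum_congr rfl fun c _ => by ring
  simp only [h1]
  exact tendsto_finsetSum _ fun c _ => (hP.lim B (half c)).const_mul _

/-- Passage of a product inequality to the limit. -/
theorem mul_le_lim {P : Measure (Pt → ℤ)} (hP : GFF.Plane P) {B : Finset Pt}
    (hB : B.Nonempty) {R : ℤ} {F₁ F₂ F₃ F₄ : Hg → ℝ} (h1 : Lcl B R F₁) (h2 : Lcl B R F₂)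
    (h3 : Lcl B R F₃) (h4 : Lcl B R F₄)
    (hle : ∀ᶠ n in atTop, ∀ᶠ M : ℤ in atTop,
      (∑ H ∈ (gD (hexa n)).Om M Set.univ, F₁ (ex1 H)) *
        (∑ H ∈ (gD (hexa n)).Om M Set.univ, F₂ (ex1 H)) ≤
      (∑ H ∈ (gD (hexa n)).Om M Set.univ, F₃ (ex1 H)) *
        ∑ H ∈ (gD (hexa n)).Om M Set.univ, F₄ (ex1 H)) :
    (∫ h, F₁ h ∂(muT P)) * (∫ h, F₂ h ∂(muT P)) ≤
      (∫ h, F₃ h ∂(muT P)) * ∫ h, F₄ h ∂(muT P) := by
  refine le_of_tendsto_of_tendsto ((tendsto_lcl hP hB h1).mul (tendsto_lcl hP hB h2))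
    ((tendsto_lcl hP hB h3).mul (tendsto_lcl hP hB h4)) ?_
  obtain ⟨n₀, hn₀⟩ := A.GibbsPf.large B
  filter_upwards [hle, eventually_ge_atTop n₀] with n hn hn1
  have hBD : B ⊆ hexa n := fun x hx => (hn₀ n hn1 x hx).1
  obtain ⟨M₀, hM₀⟩ := sum_lcl (R := R) hB hBD
  obtain ⟨M, hM1, hM2⟩ := (hn.and (eventually_ge_atTop M₀)).exists
  rw [hM₀ M hM2 _ h1, hM₀ M hM2 _ h2, hM₀ M hM2 _ h3, hM₀ M hM2 _ h4] at hM1
  rw [div_mul_div_comm, div_mul_div_comm]
  exact div_le_div_of_nonneg_right hM1 (by positivity)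

/-- Passage of an inequality with a constant to the limit. -/
theorem const_mul_le_lim {P : Measure (Pt → ℤ)} (hP : GFF.Plane P) {B : Finset Pt}
    (hB : B.Nonempty) {R : ℤ} {z : ℝ} {F₁ F₂ : Hg → ℝ} (h1 : Lcl B R F₁) (h2 : Lcl B R F₂)
    (hle : ∀ᶠ n in atTop, ∀ᶠ M : ℤ in atTop,
      z * (∑ H ∈ (gD (hexa n)).Om M Set.univ, F₁ (ex1 H)) ≤
        ∑ H ∈ (gD (hexa n)).Om M Set.univ, F₂ (ex1 H)) :
    z * (∫ h, F₁ h ∂(muT P)) ≤ ∫ h, F₂ h ∂(muT P) := by
  refine le_of_tendsto_of_tendsto ((tendsto_lcl hP hB h1).const_mul z) (tendsto_lcl hP hB h2) ?_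
  obtain ⟨n₀, hn₀⟩ := A.GibbsPf.large B
  filter_upwards [hle, eventually_ge_atTop n₀] with n hn hn1
  have hBD : B ⊆ hexa n := fun x hx => (hn₀ n hn1 x hx).1
  obtain ⟨M₀, hM₀⟩ := sum_lcl (R := R) hB hBD
  obtain ⟨M, hM1, hM2⟩ := (hn.and (eventually_ge_atTop M₀)).exists
  rw [hM₀ M hM2 _ h1, hM₀ M hM2 _ h2] at hM1
  rw [← mul_div_assoc]
  exact div_le_div_of_nonneg_right hM1 (by positivity)

end Vale.Agent.P153.F.Gh
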