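import Vale.Agent.P153.FkgGen

/-!
# P153, block F: free heights on a finite graph with even and odd sites

Integer heights on a finite graph, with prescribed parity and steps at most two; at most one end of
an edge is even. An edge is closed if both ends have modulus at most one. The modulus is positively
associated, together with the products of heights.
-/

namespace Vale.Agent.P153.F.Gh

open Finset Vale.Agent.P153
open scoped Classical

/-- Sites with a parity (`b = 0` or `b = 1`) and a symmetric neighbour relation; two even sites are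
not neighbours. -/
structure Gph (W : Type*) where
  R : W → W → Prop
  b : W → ℤ
  symm : ∀ {u v}, R u v → R v u
  b01 : ∀ u, b u = 0 ∨ b u = 1
  odd : ∀ {u v}, R u v → b u = 1 ∨ b v = 1

/-- Product of heights. -/
def mon {W : Type*} (l : List W) (H : W → ℤ) : ℝ := (l.map fun x => (H x : ℝ)).prod

/-- Modulus. -/
def ab {W : Type*} (H : W → ℤ) : W → ℤ := fun u => |H u|

/-- Heights with given signs and modulus. -/
def sm {W : Type*} (s : W → ℤˣ) (a : W → ℤ) : W → ℤ := fun u => (s u : ℤ) * a u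

/-- The sign of an integer as a unit. -/
def sn (n : ℤ) : ℤˣ := if n < 0 then -1 else 1

theorem sn_mul_abs (n : ℤ) : (sn n : ℤ) * |n| = n := by
  unfold sn
  split_ifs with h
  · simp [abs_of_neg h]
  · push Not at h
    simp [abs_of_nonneg h]

theorem sn_units_mul (u : ℤˣ) {n : ℤ} (hn : 1 ≤ n) : sn ((u : ℤ) * n) = u := by
  unfold sn
  rcases Int.units_eq_one_or u with h1 | h1
  · subst h1
    have : ¬ n < 0 := by omega
    simp [this]
  · subst h1
    have : (0 : ℤ) < n := by omega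
    simp [this]

theorem abs_units (u : ℤˣ) {n : ℤ} (hn : 0 ≤ n) : |(u : ℤ) * n| = n := by
  rcases Int.units_eq_one_or u with h1 | h1 <;> subst h1 <;> simp [abs_of_nonneg hn]

namespace Gph

variable {W : Type*} (N : Gph W) {M : ℤ}

/-- Given parity, steps at most two. -/
def Lp (H : W → ℤ) : Prop := (∀ u, Even (H u - N.b u)) ∧ ∀ u v, N.R u v → |H u - H v| ≤ 2

theorem Lp.inf {N : Gph W} {a a' : W → ℤ} (h : N.Lp a) (h' : N.Lp a') : N.Lp (a ⊓ a') := by
  refine ⟨fun u => ?_, fun u v huv => ?_⟩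
  · rcases min_choice (a u) (a' u) with h1 | h1
    · simpa [h1] using h.1 u
    · simpa [h1] using h'.1 u
  · exact (abs_min_sub_min_le_max (a u) (a' u) (a v) (a' v)).trans
      (max_le (h.2 u v huv) (h'.2 u v huv))

theorem Lp.sup {N : Gph W} {a a' : W → ℤ} (h : N.Lp a) (h' : N.Lp a') : N.Lp (a ⊔ a') := by
  refine ⟨fun u => ?_, fun u v huv => ?_⟩
  · rcases max_choice (a u) (a' u) with h1 | h1
    · simpa [h1] using h.1 u
    · simpa [h1] using h'.1 u
  · exact (abs_max_sub_max_le_max (a u) (a' u) (a v) (a' v)).trans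
      (max_le (h.2 u v huv) (h'.2 u v huv))

theorem b_nonneg (u : W) : 0 ≤ N.b u := by rcases N.b01 u with h | h <;> rw [h]; norm_num

theorem b_le (u : W) : N.b u ≤ 1 := by rcases N.b01 u with h | h <;> rw [h]; norm_num

theorem b_le_of {a : ℤ} {u : W} (h : Even (a - N.b u)) (h0 : 0 ≤ a) : N.b u ≤ a := by
  rcases N.b01 u with h1 | h1
  · rw [h1]; exact h0
  · rw [h1] at h ⊢
    obtain ⟨m, hm⟩ := h
    omega

theorem eq_b_of {a : ℤ} {u : W} (h : Even (a - N.b u)) (h0 : 0 ≤ a) (h1 : a ≤ 1) : a = N.b u := by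
  rcases N.b01 u with h2 | h2 <;> rw [h2] at h ⊢ <;> obtain ⟨m, hm⟩ := h <;> omega

theorem even_abs {n : ℤ} {u : W} (h : Even (n - N.b u)) : Even (|n| - N.b u) := by
  rcases abs_choice n with h1 | h1
  · rw [h1]; exact h
  · rw [h1]
    obtain ⟨m, hm⟩ := h
    exact ⟨-m - N.b u, by omega⟩

/-- The signs compatible with the modulus. -/
def SG (a : W → ℤ) : Subgroup (W → ℤˣ) where
  carrier := {s | ∀ u v, N.R u v → ¬ (a u ≤ 1 ∧ a v ≤ 1) → s u = s v}
  mul_mem' := by
    rintro s t hs ht u v huv h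
    simp [hs u v huv h, ht u v huv h]
  one_mem' := by
    intro u v _ _
    rfl
  inv_mem' := by
    rintro s hs u v huv h
    simp [hs u v huv h]

theorem mem_SG {a : W → ℤ} {s : W → ℤˣ} :
    s ∈ N.SG a ↔ ∀ u v, N.R u v → ¬ (a u ≤ 1 ∧ a v ≤ 1) → s u = s v := Iff.rfl

theorem SG_sup (a a' : W → ℤ) : N.SG (a ⊔ a') = N.SG a ⊓ N.SG a' := by
  ext s
  rw [Subgroup.mem_inf, mem_SG, mem_SG, mem_SG]
  constructor
  · intro h2
    refine ⟨fun x y hxy h => h2 x y hxy ?_, fun x y hxy h => h2 x y hxy ?_⟩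
    · rintro ⟨h3, h4⟩
      simp only [Pi.sup_apply, sup_le_iff] at h3 h4
      exact h ⟨h3.1, h4.1⟩
    · rintro ⟨h3, h4⟩
      simp only [Pi.sup_apply, sup_le_iff] at h3 h4
      exact h ⟨h3.2, h4.2⟩
  · rintro ⟨h2, h4⟩ x y hxy h
    by_cases h5 : a x ≤ 1 ∧ a y ≤ 1
    · apply h4 x y hxy
      rintro ⟨h6, h7⟩
      apply h
      simp only [Pi.sup_apply, sup_le_iff]
      exact ⟨⟨h5.1, h6⟩, ⟨h5.2, h7⟩⟩
    · exact h2 x y hxy h5

theorem SG_anti {a a' : W → ℤ} (h : a ≤ a') : N.SG a' ≤ N.SG a := by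
  intro s hs
  rw [mem_SG] at *
  intro x y hxy hne
  refine hs x y hxy ?_
  rintro ⟨h1, h2⟩
  exact hne ⟨(h x).trans h1, (h y).trans h2⟩

section fin

variable [Fintype W]

/-- The number of the compatible signs. -/
noncomputable def nSG (a : W → ℤ) : ℕ := Nat.card (N.SG a)

theorem nSG_mul (a a' : W → ℤ) : N.nSG a * N.nSG a' ≤ N.nSG (a ⊓ a') * N.nSG (a ⊔ a') := by
  have h := card_mul_card_le (N.SG a) (N.SG a') (N.SG (a ⊓ a')) (N.SG_anti inf_le_left)
    (N.SG_anti inf_le_right)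
  rw [← SG_sup] at h
  unfold nSG
  rw [mul_comm (Nat.card (N.SG (a ⊓ a')))]
  exact h

/-- Finset of the compatible signs. -/
noncomputable def SGF (a : W → ℤ) : Finset (W → ℤˣ) := Finset.univ.filter fun s => s ∈ N.SG a

theorem mem_SGF {a : W → ℤ} {s : W → ℤˣ} : s ∈ N.SGF a ↔ s ∈ N.SG a := by simp [SGF]

theorem card_SGF (a : W → ℤ) : #(N.SGF a) = N.nSG a := by
  unfold SGF nSG
  rw [Nat.card_eq_fintype_card, Fintype.card_subtype]

/-- Heights with modulus at most `M`, minimal off `D`. -/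
noncomputable def Om (M : ℤ) (D : Set W) : Finset (W → ℤ) :=
  (Fintype.piFinset fun _ => Finset.Icc (-M) M).filter fun H =>
    N.Lp H ∧ ∀ u, u ∉ D → |H u| = N.b u

theorem mem_Om {D : Set W} {H : W → ℤ} : H ∈ N.Om M D ↔ (∀ u, |H u| ≤ M) ∧ N.Lp H ∧
    ∀ u, u ∉ D → |H u| = N.b u := by
  unfold Om
  rw [Finset.mem_filter, Fintype.mem_piFinset]
  simp only [Finset.mem_Icc, abs_le]

/-- Moduli at most `M`, minimal off `D`. -/
noncomputable def Ab (M : ℤ) (D : Set W) : Finset (W → ℤ) :=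
  (Fintype.piFinset fun _ => Finset.Icc 0 M).filter fun a => N.Lp a ∧ ∀ u, u ∉ D → a u = N.b u

theorem mem_Ab {D : Set W} {a : W → ℤ} : a ∈ N.Ab M D ↔ (∀ u, 0 ≤ a u ∧ a u ≤ M) ∧ N.Lp a ∧
    ∀ u, u ∉ D → a u = N.b u := by
  unfold Ab
  rw [Finset.mem_filter, Fintype.mem_piFinset]
  simp only [Finset.mem_Icc]

/-- The correction for the zeros. -/
noncomputable def cz (a : W → ℤ) : ℝ := ∏ u, if a u ≤ 0 then (1 / 2 : ℝ) else 1

theorem cz_pos (a : W → ℤ) : 0 < cz a := by
  refine Finset.prod_pos fun u _ => ?_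
  split_ifs <;> norm_num

theorem cz_mul (a a' : W → ℤ) : cz a * cz a' = cz (a ⊓ a') * cz (a ⊔ a') := by
  unfold cz
  rw [← Finset.prod_mul_distrib, ← Finset.prod_mul_distrib]
  refine Finset.prod_congr rfl fun u _ => ?_
  simp only [Pi.inf_apply, Pi.sup_apply]
  rcases le_total (a u) (a' u) with h | h
  · simp only [min_eq_left h, max_eq_right h]
  · simp only [min_eq_right h, max_eq_left h]
    rw [mul_comm]

/-- Decomposition into modulus and signs. -/
theorem sum_Om (D : Set W) (F : (W → ℤ) → ℝ) :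
    ∑ H ∈ N.Om M D, F H = ∑ a ∈ N.Ab M D, cz a * ∑ s ∈ N.SGF a, F (sm s a) := by
  -- the signs of given heights
  set T : (W → ℤ) → Finset (W → ℤˣ) := fun H =>
    Fintype.piFinset fun u => if H u = 0 then Finset.univ else {sn (H u)} with hT
  have hTm : ∀ H s, s ∈ T H ↔ ∀ u, H u ≠ 0 → s u = sn (H u) := by
    intro H s
    rw [hT, Fintype.mem_piFinset]
    refine forall_congr' fun u => ?_
    by_cases h : H u = 0
    · simp only [h, if_true, Finset.mem_univ, ne_eq, not_true_eq_false, false_imp_iff]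
    · simp only [h, if_false, Finset.mem_singleton, ne_eq, not_false_eq_true, true_imp_iff]
  have hTc : ∀ H, cz (ab H) * (#(T H) : ℝ) = 1 := by
    intro H
    rw [hT, Fintype.card_piFinset]
    unfold cz
    push_cast
    rw [← Finset.prod_mul_distrib]
    refine Finset.prod_eq_one fun u _ => ?_
    unfold ab
    by_cases h : H u = 0
    · simp [h]
    · have h1 : ¬ |H u| ≤ 0 := by
        rw [not_le]; exact abs_pos.2 h
      simp [h, h1]
  have h1 : ∑ H ∈ N.Om M D, F H = ∑ H ∈ N.Om M D, ∑ _s ∈ T H, cz (ab H) * F H := by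
    refine Finset.sum_congr rfl fun H _ => ?_
    rw [Finset.sum_const, nsmul_eq_mul, ← mul_assoc, mul_comm (#(T H) : ℝ), hTc, one_mul]
  rw [h1, Finset.sum_sigma' (N.Om M D) T (fun H _ => cz (ab H) * F H)]
  have h2 : ∑ a ∈ N.Ab M D, cz a * ∑ s ∈ N.SGF a, F (sm s a) =
      ∑ a ∈ N.Ab M D, ∑ s ∈ N.SGF a, cz a * F (sm s a) := by
    refine Finset.sum_congr rfl fun a _ => ?_
    rw [Finset.mul_sum]
  rw [h2, Finset.sum_sigma' (N.Ab M D) (fun a => N.SGF a) (fun a s => cz a * F (sm s a))]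
  have hback : ∀ (H : W → ℤ) (s : W → ℤˣ), s ∈ T H → sm s (ab H) = H := by
    intro H s hs
    rw [hTm] at hs
    funext u
    unfold sm ab
    by_cases h : H u = 0
    · simp [h]
    · rw [hs u h]; exact sn_mul_abs _
  refine Finset.sum_nbij' (i := fun p => (⟨ab p.1, p.2⟩ : (_ : W → ℤ) × (W → ℤˣ)))
    (j := fun p => (⟨sm p.2 p.1, p.2⟩ : (_ : W → ℤ) × (W → ℤˣ))) ?_ ?_ ?_ ?_ ?_
  · rintro ⟨H, s⟩ hp
    obtain ⟨hH, hs⟩ := Finset.mem_sigma.1 hp
    simp only at hH hs
    rw [mem_Om] at hH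
    rw [hTm] at hs
    obtain ⟨hM, ⟨hpar, hlip⟩, hout⟩ := hH
    rw [Finset.mem_sigma]
    refine ⟨N.mem_Ab.2 ⟨fun u => ⟨abs_nonneg _, hM u⟩, ⟨fun u => N.even_abs (hpar u),
      fun u v huv => (abs_abs_sub_abs_le (H u) (H v)).trans (hlip u v huv)⟩, hout⟩,
      N.mem_SGF.2 (N.mem_SG.2 fun u v huv hne => ?_)⟩
    have hd := abs_le.1 (hlip u v huv)
    have h3 : H u ≠ 0 := by
      intro h0
      apply hne
      have hv : H v ≤ 1 ∧ -1 ≤ H v := by
        have hb : N.b v = 1 := by
          rcases N.odd huv with h | h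
          · exfalso
            have := hpar u
            rw [h0, h] at this
            obtain ⟨m, hm⟩ := this
            omega
          · exact h
        have := hpar v
        rw [hb] at this
        obtain ⟨m, hm⟩ := this
        omega
      simp only [ab]
      exact ⟨by rw [h0]; simp, abs_le.2 ⟨hv.2, hv.1⟩⟩
    have h4 : H v ≠ 0 := by
      intro h0
      apply hne
      have hv : H u ≤ 1 ∧ -1 ≤ H u := by
        have hb : N.b u = 1 := by
          rcases N.odd huv with h | h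
          · exact h
          · exfalso
            have := hpar v
            rw [h0, h] at this
            obtain ⟨m, hm⟩ := this
            omega
        have := hpar u
        rw [hb] at this
        obtain ⟨m, hm⟩ := this
        omega
      simp only [ab]
      exact ⟨abs_le.2 ⟨hv.2, hv.1⟩, by rw [h0]; simp⟩
    show s u = s v
    rw [hs u h3, hs v h4]
    unfold sn
    by_cases h5 : H u < 0 <;> by_cases h6 : H v < 0
    · rw [if_pos h5, if_pos h6]
    · exfalso
      apply hne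
      simp only [ab]
      rw [abs_of_neg h5, abs_of_nonneg (not_lt.1 h6)]
      omega
    · exfalso
      apply hne
      simp only [ab]
      rw [abs_of_neg h6, abs_of_nonneg (not_lt.1 h5)]
      omega
    · rw [if_neg h5, if_neg h6]
  · rintro ⟨a, s⟩ hp
    obtain ⟨ha, hs⟩ := Finset.mem_sigma.1 hp
    simp only at ha hs
    rw [mem_Ab] at ha
    rw [mem_SGF, mem_SG] at hs
    obtain ⟨hM, ⟨hpar, hlip⟩, hout⟩ := ha
    have habs : ∀ u, |sm s a u| = a u := fun u => abs_units (s u) (hM u).1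
    rw [Finset.mem_sigma]
    refine ⟨N.mem_Om.2 ⟨fun u => ?_, ⟨fun u => ?_, fun u v huv => ?_⟩, fun u hu => ?_⟩,
      (hTm _ _).2 fun u hu => ?_⟩
    · show |sm s a u| ≤ M
      rw [habs]; exact (hM u).2
    · show Even (sm s a u - N.b u)
      have h := hpar u
      rcases Int.units_eq_one_or (s u) with h3 | h3
      · simpa [sm, h3] using h
      · obtain ⟨m, hm⟩ := h
        exact ⟨-m - N.b u, by simp only [sm, h3, Units.val_neg, Units.val_one]; omega⟩
    · show |sm s a u - sm s a v| ≤ 2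
      have h0 := (hM u).1
      have h0' := (hM v).1
      by_cases hc : a u ≤ 1 ∧ a v ≤ 1
      · rcases Int.units_eq_one_or (s u) with h3 | h3 <;>
          rcases Int.units_eq_one_or (s v) with h4 | h4 <;>
          simp only [sm, h3, h4, Units.val_neg, Units.val_one] <;> rw [abs_le] <;> omega
      · have h3 := hs u v huv hc
        have h4 := abs_le.1 (hlip u v huv)
        rcases Int.units_eq_one_or (s v) with h5 | h5 <;>
          simp only [sm, h3, h5, Units.val_neg, Units.val_one] <;> rw [abs_le] <;> omega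
    · show |sm s a u| = N.b u
      rw [habs]; exact hout u hu
    · show s u = sn (sm s a u)
      have h0 : 1 ≤ a u := by
        have := (hM u).1
        by_contra hc
        have h1 : a u = 0 := by omega
        exact hu (by simp [sm, h1])
      exact (sn_units_mul (s u) h0).symm
  · rintro ⟨H, s⟩ hp
    obtain ⟨-, hs⟩ := Finset.mem_sigma.1 hp
    have := hback H s hs
    simp only [this]
  · rintro ⟨a, s⟩ hp
    obtain ⟨ha, -⟩ := Finset.mem_sigma.1 hp
    have h3 : ab (sm s a) = a := by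
      funext u
      exact abs_units (s u) ((N.mem_Ab.1 ha).1 u).1
    simp only [h3]
  · rintro ⟨H, s⟩ hp
    obtain ⟨-, hs⟩ := Finset.mem_sigma.1 hp
    simp only [hback H s hs]

omit [Fintype W] in
theorem ab_sm {a : W → ℤ} (s : W → ℤˣ) (ha : ∀ u, 0 ≤ a u) : ab (sm s a) = a := by
  funext u
  exact abs_units (s u) (ha u)

/-- Moments of the signs. -/
theorem sum_SGF_prod (a : W → ℤ) (l : List W) :
    ∑ s ∈ N.SGF a, (((l.map s).prod : ℤˣ) : ℝ) =
      if ∀ s ∈ N.SG a, (l.map s).prod = 1 then (N.nSG a : ℝ) else 0 := by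
  split_ifs with h
  · rw [← card_SGF, Finset.card_eq_sum_ones, Nat.cast_sum]
    refine Finset.sum_congr rfl fun s hs => ?_
    rw [h s (N.mem_SGF.1 hs)]
    simp
  · push Not at h
    obtain ⟨t, ht, hxy⟩ := h
    have ht1 : (l.map t).prod = -1 := by
      rcases Int.units_eq_one_or (l.map t).prod with h1 | h1
      · exact absurd h1 hxy
      · exact h1
    have hmul : ∀ s : W → ℤˣ, (l.map (t * s)).prod = (l.map t).prod * (l.map s).prod := by
      intro s
      have : l.map (t * s) = l.map fun x => t x * s x := rfl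
      rw [this, List.prod_map_mul]
    have key : ∑ s ∈ N.SGF a, (((l.map s).prod : ℤˣ) : ℝ) =
        ∑ s ∈ N.SGF a, (((l.map (t * s)).prod : ℤˣ) : ℝ) := by
      symm
      refine Finset.sum_nbij' (fun s => t * s) (fun s => t⁻¹ * s) ?_ ?_ ?_ ?_ ?_
      · intro s hs
        exact N.mem_SGF.2 (mul_mem ht (N.mem_SGF.1 hs))
      · intro s hs
        exact N.mem_SGF.2 (mul_mem (inv_mem ht) (N.mem_SGF.1 hs))
      · intro s _; simp
      · intro s _; simp
      · intro s _; rfl
    have key2 : ∀ s ∈ N.SGF a, (((l.map (t * s)).prod : ℤˣ) : ℝ) =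
        -(((l.map s).prod : ℤˣ) : ℝ) := by
      intro s _
      rw [hmul, ht1]
      simp
    rw [Finset.sum_congr rfl key2, Finset.sum_neg_distrib] at key
    linarith

/-- Conditional expectation of a product of heights given the modulus. -/
noncomputable def Fk (l : List W) (a : W → ℤ) : ℝ :=
  (l.map fun x => ((max (a x) 0 : ℤ) : ℝ)).prod *
    if ∀ s ∈ N.SG a, (l.map s).prod = 1 then 1 else 0

omit [Fintype W] in
theorem prod_max_nonneg (l : List W) (a : W → ℤ) :
    0 ≤ (l.map fun x => ((max (a x) 0 : ℤ) : ℝ)).prod := by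
  refine List.prod_nonneg fun y hy => ?_
  obtain ⟨x, -, rfl⟩ := List.mem_map.1 hy
  exact_mod_cast le_max_right (a x) 0

omit [Fintype W] in
theorem prod_max_mono (l : List W) {a a' : W → ℤ} (h : a ≤ a') :
    (l.map fun x => ((max (a x) 0 : ℤ) : ℝ)).prod ≤
      (l.map fun x => ((max (a' x) 0 : ℤ) : ℝ)).prod := by
  induction l with
  | nil => simp
  | cons x l ih =>
    simp only [List.map_cons, List.prod_cons]
    refine mul_le_mul ?_ ih (prod_max_nonneg l a) ?_
    · exact_mod_cast max_le_max (h x) le_rfl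
    · exact_mod_cast le_max_right (a' x) 0

theorem Fk_nonneg (l : List W) (a : W → ℤ) : 0 ≤ N.Fk l a := by
  unfold Fk
  refine mul_nonneg (prod_max_nonneg l a) ?_
  split_ifs <;> norm_num

theorem Fk_mono (l : List W) : Monotone (N.Fk l) := by
  intro a a' h
  unfold Fk
  by_cases h1 : ∀ s ∈ N.SG a, (l.map s).prod = 1
  · have h2 : ∀ s ∈ N.SG a', (l.map s).prod = 1 := fun s hs => h1 s (N.SG_anti h hs)
    rw [if_pos h1, if_pos h2, mul_one, mul_one]
    exact prod_max_mono l h
  · rw [if_neg h1, mul_zero]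
    exact mul_nonneg (prod_max_nonneg l a') (by split_ifs <;> norm_num)

theorem sum_signs {a : W → ℤ} (ha : ∀ u, 0 ≤ a u) (l : List W) :
    ∑ s ∈ N.SGF a, mon l (sm s a) = (N.nSG a : ℝ) * N.Fk l a := by
  have h1 : ∀ s : W → ℤˣ, mon l (sm s a) =
      (l.map fun x => ((max (a x) 0 : ℤ) : ℝ)).prod * (((l.map s).prod : ℤˣ) : ℝ) := by
    intro s
    unfold mon sm
    induction l with
    | nil => simp
    | cons x l ih =>
      simp only [List.map_cons, List.prod_cons] at ih ⊢
      rw [ih, max_eq_left (ha x)]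
      push_cast
      ring
  rw [Finset.sum_congr rfl fun s _ => h1 s, ← Finset.mul_sum, sum_SGF_prod]
  unfold Fk
  split_ifs <;> ring

theorem sum_Om_mon (D : Set W) (X : (W → ℤ) → ℝ) (l : List W) :
    ∑ H ∈ N.Om M D, X (ab H) * mon l H =
      ∑ a ∈ N.Ab M D, (cz a * N.nSG a * X a) * N.Fk l a := by
  rw [N.sum_Om D fun H => X (ab H) * mon l H]
  refine Finset.sum_congr rfl fun a ha => ?_
  have h0 : ∀ u, 0 ≤ a u := fun u => ((N.mem_Ab.1 ha).1 u).1
  have h1 : ∀ s ∈ N.SGF a, X (ab (sm s a)) * mon l (sm s a) = X a * mon l (sm s a) := by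
    intro s _
    rw [ab_sm s h0]
  rw [Finset.sum_congr rfl h1, ← Finset.mul_sum, N.sum_signs h0]
  ring

theorem sum_Om_ab (D : Set W) (X : (W → ℤ) → ℝ) :
    ∑ H ∈ N.Om M D, X (ab H) = ∑ a ∈ N.Ab M D, cz a * N.nSG a * X a := by
  have h := N.sum_Om_mon (M := M) D X []
  have e1 : ∀ H : W → ℤ, mon [] H = 1 := fun H => rfl
  have e2 : ∀ a : W → ℤ, N.Fk [] a = 1 := by
    intro a
    unfold Fk
    simp
  simp only [e1, e2, mul_one] at h
  exact h

/-- Master inequality. -/
theorem master {D D' : Set W} (hD : D' ⊆ D) {X₁ X₂ : (W → ℤ) → ℝ} (h1 : ∀ a, 0 ≤ X₁ a)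
    (h2 : ∀ a, 0 ≤ X₂ a)
    (hX : ∀ a ∈ N.Ab M D', ∀ a' ∈ N.Ab M D, X₁ a * X₂ a' ≤ X₁ (a ⊓ a') * X₂ (a ⊔ a'))
    {B : (W → ℤ) → ℝ} (hB0 : ∀ a, 0 ≤ B a) (hB : Monotone B) (l : List W) :
    (∑ H ∈ N.Om M D', X₁ (ab H) * (B (ab H) * mon l H)) * (∑ H ∈ N.Om M D, X₂ (ab H)) ≤
      (∑ H ∈ N.Om M D', X₁ (ab H)) * ∑ H ∈ N.Om M D, X₂ (ab H) * (B (ab H) * mon l H) := by
  have r1 : ∀ (D : Set W) (X : (W → ℤ) → ℝ), ∑ H ∈ N.Om M D, X (ab H) * (B (ab H) * mon l H) =
      ∑ a ∈ N.Ab M D, (cz a * N.nSG a * X a) * (B a * N.Fk l a) := by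
    intro D X
    have h := N.sum_Om_mon (M := M) D (fun a => X a * B a) l
    have e : ∀ H : W → ℤ, X (ab H) * (B (ab H) * mon l H) = X (ab H) * B (ab H) * mon l H :=
      fun H => by ring
    rw [Finset.sum_congr rfl fun H _ => e H, h]
    exact Finset.sum_congr rfl fun a _ => by ring
  rw [r1, r1, N.sum_Om_ab, N.sum_Om_ab]
  let w₁ : (W → ℤ) → ℝ := fun a => if a ∈ N.Ab M D' then cz a * N.nSG a * X₁ a else 0
  let w₂ : (W → ℤ) → ℝ := fun a => if a ∈ N.Ab M D then cz a * N.nSG a * X₂ a else 0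
  have hp : ∀ a : W → ℤ, 0 ≤ cz a * (N.nSG a : ℝ) := fun a =>
    mul_nonneg (cz_pos a).le (Nat.cast_nonneg _)
  have hw₁ : ∀ a, 0 ≤ w₁ a := fun a => by
    dsimp only [w₁]
    split_ifs
    · exact mul_nonneg (hp a) (h1 a)
    · exact le_rfl
  have hw₂ : ∀ a, 0 ≤ w₂ a := fun a => by
    dsimp only [w₂]
    split_ifs
    · exact mul_nonneg (hp a) (h2 a)
    · exact le_rfl
  have key := holley_weighted w₁ w₂ (fun a => B a * N.Fk l a) (N.Ab M D') (N.Ab M D) hw₁ hw₂
    (fun a => mul_nonneg (hB0 a) (N.Fk_nonneg l a))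
    (fun a a' h => mul_le_mul (hB h) (N.Fk_mono l h) (N.Fk_nonneg l a) (hB0 a'))
    (fun a ha => if_neg ha) (fun a ha => if_neg ha)
    (by
      intro a a'
      by_cases ha : a ∈ N.Ab M D'
      · by_cases ha' : a' ∈ N.Ab M D
        · have i1 := N.mem_Ab.1 ha
          have i2 := N.mem_Ab.1 ha'
          have hinf : a ⊓ a' ∈ N.Ab M D' := by
            refine N.mem_Ab.2 ⟨fun u => ?_, i1.2.1.inf i2.2.1, fun u hu => ?_⟩
            · have j1 := i1.1 u
              have j2 := i2.1 u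
              simp only [Pi.inf_apply]
              exact ⟨le_inf j1.1 j2.1, inf_le_left.trans j1.2⟩
            · have j1 := i1.2.2 u hu
              have j2 := N.b_le_of (i2.2.1.1 u) (i2.1 u).1
              simp only [Pi.inf_apply]
              rw [j1]
              exact inf_eq_left.2 j2
          have hsup : a ⊔ a' ∈ N.Ab M D := by
            refine N.mem_Ab.2 ⟨fun u => ?_, i1.2.1.sup i2.2.1, fun u hu => ?_⟩
            · have j1 := i1.1 u
              have j2 := i2.1 u
              simp only [Pi.sup_apply]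
              exact ⟨le_sup_of_le_left j1.1, sup_le j1.2 j2.2⟩
            · have j1 := i1.2.2 u fun h => hu (hD h)
              have j2 := i2.2.2 u hu
              simp only [Pi.sup_apply]
              rw [j1, j2]
              exact sup_idem _
          dsimp only [w₁, w₂]
          rw [if_pos ha, if_pos ha', if_pos hinf, if_pos hsup]
          have e1 : (N.nSG a : ℝ) * N.nSG a' ≤ N.nSG (a ⊓ a') * N.nSG (a ⊔ a') := by
            exact_mod_cast N.nSG_mul a a'
          have e2 := hX a ha a' ha'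
          have e3 := cz_mul a a'
          calc cz a * (N.nSG a : ℝ) * X₁ a * (cz a' * N.nSG a' * X₂ a')
              = (cz a * cz a') * ((N.nSG a : ℝ) * N.nSG a') * (X₁ a * X₂ a') := by ring
            _ ≤ (cz a * cz a') * ((N.nSG (a ⊓ a') : ℝ) * N.nSG (a ⊔ a')) *
                (X₁ (a ⊓ a') * X₂ (a ⊔ a')) := by
                refine mul_le_mul (mul_le_mul_of_nonneg_left e1
                  (mul_nonneg (cz_pos a).le (cz_pos a').le)) e2 (mul_nonneg (h1 _) (h2 _)) ?_
                exact mul_nonneg (mul_nonneg (cz_pos a).le (cz_pos a').le) (by positivity)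
            _ = _ := by rw [e3]; ring
        · have : w₂ a' = 0 := if_neg ha'
          rw [this, mul_zero]
          exact mul_nonneg (hw₁ _) (hw₂ _)
      · have : w₁ a = 0 := if_neg ha
        rw [this, zero_mul]
        exact mul_nonneg (hw₁ _) (hw₂ _))
  have e1 : ∑ a ∈ N.Ab M D', w₁ a * (B a * N.Fk l a) =
      ∑ a ∈ N.Ab M D', cz a * (N.nSG a : ℝ) * X₁ a * (B a * N.Fk l a) :=
    Finset.sum_congr rfl fun a ha => by dsimp only [w₁]; rw [if_pos ha]
  have e2 : ∑ a ∈ N.Ab M D, w₂ a * (B a * N.Fk l a) =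
      ∑ a ∈ N.Ab M D, cz a * (N.nSG a : ℝ) * X₂ a * (B a * N.Fk l a) :=
    Finset.sum_congr rfl fun a ha => by dsimp only [w₂]; rw [if_pos ha]
  have e3 : ∑ a ∈ N.Ab M D', w₁ a = ∑ a ∈ N.Ab M D', cz a * (N.nSG a : ℝ) * X₁ a :=
    Finset.sum_congr rfl fun a ha => by dsimp only [w₁]; rw [if_pos ha]
  have e4 : ∑ a ∈ N.Ab M D, w₂ a = ∑ a ∈ N.Ab M D, cz a * (N.nSG a : ℝ) * X₂ a :=
    Finset.sum_congr rfl fun a ha => by dsimp only [w₂]; rw [if_pos ha]
  rw [e1, e2, e3, e4] at key
  exact key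

end fin

end Gph

end Vale.Agent.P153.F.Gh
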